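import Vale.Agent.P190.Defs

/-!
Definitions for P190: the degree five del Pezzo surface with its ten lines, in torus coordinates.
Indices `0..5`: toric boundary hexagon, `6,7,8`: the curves `s = 1`, `t = 1`, `s = t`,
`9`: the exceptional curve over `(1,1)`.
-/

namespace Vale.Agent.P190

open Module Filter

/-- the rational function field `k(s,t)` -/
abbrev KK (k : Type) [Field k] : Type := FractionRing (MvPolynomial (Fin 2) k)

/-- degrees -/
abbrev ZZ : Type := Fin 10 → ℤ

/-- constant degree vector -/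
def cst (m : ℤ) : ZZ := fun _ => m

/-- divisors of the five units `s, t, 1 - s, 1 - t, s - t` -/
def lam : Fin 5 → ZZ :=
  ![![1, 1, 0, -1, -1, 0, 0, 0, 0, 0],
    ![0, 1, 1, 0, -1, -1, 0, 0, 0, 0],
    ![0, 0, 0, -1, -1, 0, 1, 0, 0, 1],
    ![0, 0, 0, 0, -1, -1, 0, 1, 0, 1],
    ![0, 1, 0, -1, -1, -1, 0, 0, 1, 1]]

/-- divisor of a unit monomial -/
def lamv (c : Fin 5 → ℤ) : ZZ := fun i => ∑ j, c j * lam j i

/-- intersection matrix of the ten lines (Petersen graph minus identity) -/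
def imat : Fin 10 → Fin 10 → ℤ :=
  ![![-1, 1, 0, 0, 0, 1, 0, 1, 0, 0],
    ![1, -1, 1, 0, 0, 0, 0, 0, 1, 0],
    ![0, 1, -1, 1, 0, 0, 1, 0, 0, 0],
    ![0, 0, 1, -1, 1, 0, 0, 1, 0, 0],
    ![0, 0, 0, 1, -1, 1, 0, 0, 1, 0],
    ![1, 0, 0, 0, 1, -1, 1, 0, 0, 0],
    ![0, 0, 1, 0, 0, 1, -1, 0, 0, 1],
    ![1, 0, 0, 1, 0, 0, 0, -1, 0, 1],
    ![0, 1, 0, 0, 1, 0, 0, 0, -1, 1],
    ![0, 0, 0, 0, 0, 0, 1, 1, 1, -1]]

/-- intersection form -/
def II (x y : ZZ) : ℤ := ∑ i, ∑ j, x i * imat i j * y j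

/-- degree with respect to the hexagon `A` -/
def HA : ZZ →+ ℤ where
  toFun x := x 0 + x 1 + x 2 + x 3 + x 4 + x 5 + 2 * (x 6 + x 7 + x 8)
  map_zero' := by simp
  map_add' x y := by simp only [Pi.add_apply]; ring

/-- anticanonical degree -/
def HL : ZZ →+ ℤ where
  toFun x := ∑ i, x i
  map_zero' := by simp
  map_add' x y := by simp only [Pi.add_apply, Finset.sum_add_distrib]

/-- the six rays of the hexagon -/
def rho : Fin 6 → ℤ × ℤ := ![(1, 0), (1, 1), (0, 1), (-1, 0), (-1, -1), (0, -1)]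

/-- Hilbert polynomial of the cover -/
def P0 (n : ℕ) (w : ZZ) : ℚ :=
  (n : ℚ) ^ 3 * (7 / 12 * (n : ℚ) ^ 2 - 5 / 2 * n + 35 / 12) +
    (n : ℚ) ^ 3 * ((II w w : ℚ) - ((n : ℚ) - 2) * HL w) / 2

/-- Riemann-Roch polynomial for rank `r`, class `γ`, second character `g` -/
def RR (n : ℕ) (r : ℚ) (γ : ZZ) (g : ℚ) (w : ZZ) : ℚ :=
  r * P0 n w + (n : ℚ) ^ 3 * ((II γ w : ℚ) - ((n : ℚ) - 2) * HL γ / 2) + g

section field

variable (k : Type) [Field k]

/-- the coordinate `s` -/
noncomputable def ss : KK k := algebraMap (MvPolynomial (Fin 2) k) (KK k) (MvPolynomial.X 0)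

/-- the coordinate `t` -/
noncomputable def tt : KK k := algebraMap (MvPolynomial (Fin 2) k) (KK k) (MvPolynomial.X 1)

/-- the five units -/
noncomputable def uu : Fin 5 → KK k := ![ss k, tt k, 1 - ss k, 1 - tt k, ss k - tt k]

/-- unit monomials -/
noncomputable def umon (c : Fin 5 → ℤ) : KK k := ∏ j, uu k j ^ c j

/-- graded pieces of the Cox ring of the Kummer cover of exponent `n` -/
noncomputable def BB (n : ℕ) (a : ZZ) : Submodule k (KK k) :=
  Submodule.span k {φ | ∃ c : Fin 5 → ℤ, (∀ i, 0 ≤ a i + n * lamv c i) ∧ φ = umon k c}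

/-- Laurent polynomials in `s, t` -/
abbrev LL : Type := AddMonoidAlgebra k (ℤ × ℤ)

/-- the monomial `s ^ i * t ^ j` -/
noncomputable def smon (m : ℤ × ℤ) : KK k := ss k ^ m.1 * tt k ^ m.2

/-- evaluation of a Laurent polynomial in `k(s,t)` -/
noncomputable def lev (F : LL k) : KK k := F.coeff.sum fun m c => c • smon k m

/-- the ideal of the point `(1,1)` in the Laurent ring -/
noncomputable def mOne : Ideal (LL k) :=
  Ideal.span {AddMonoidAlgebra.single ((1 : ℤ), (0 : ℤ)) (1 : k) - 1,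
    AddMonoidAlgebra.single ((0 : ℤ), (1 : ℤ)) (1 : k) - 1}

/-- polynomials of total degree at most `j`, inside `k(s,t)` -/
noncomputable def AA (j : ℤ) : Submodule k (KK k) :=
  Submodule.span k {φ | ∃ a b : ℕ, (a : ℤ) + b ≤ j ∧ φ = ss k ^ a * tt k ^ b}

/-- The valuation data of the del Pezzo system. -/
structure DP (n : ℕ) where
  S : Sys k (KK k) ZZ
  n_pos : 0 < n
  hB : S.B = BB k n
  sp : Fin 10 → S.Pl
  sp_inj : Function.Injective sp
  v : S.Pl → KK k → ℤ
  val_sp : ∀ i a φ, S.val (sp i) a φ = n * v (sp i) φ + a i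
  val_ns : ∀ P, P ∉ Set.range sp → ∀ a φ, S.val P a φ = v P φ
  v_umon_sp : ∀ i c, v (sp i) (umon k c) = lamv c i
  v_umon_ns : ∀ P, P ∉ Set.range sp → ∀ c, v P (umon k c) = 0
  laurent : ∀ φ : KK k, φ ≠ 0 →
    (∀ P, (∀ g : Fin 6, P ≠ sp (g.castLE (by norm_num))) → P ≠ sp 9 → 0 ≤ v P φ) →
      ∃ F : LL k, lev k F = φ
  v_lev : ∀ F : LL k, F ≠ 0 → ∀ P, (∀ g : Fin 6, P ≠ sp (g.castLE (by norm_num))) →
    0 ≤ v P (lev k F)
  v_hex : ∀ F : LL k, F ≠ 0 → ∀ (g : Fin 6) (j : ℤ),
    j ≤ v (sp (g.castLE (by norm_num))) (lev k F) ↔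
      ∀ m ∈ F.coeff.support, j ≤ (rho g).1 * m.1 + (rho g).2 * m.2
  v_pt : ∀ F : LL k, F ≠ 0 → ∀ j : ℕ, (j : ℤ) ≤ v (sp 9) (lev k F) ↔ F ∈ mOne k ^ j

/-- formal power series in three variables -/
abbrev PS : Type := MvPowerSeries (Fin 3) k

/-- an algebraic closure of the fraction field of the power series ring -/
abbrev OO : Type := AlgebraicClosure (FractionRing (PS k))

end field

variable {k : Type} [Field k] {n : ℕ}

section fams

variable {S : Sys k (KK k) ZZ}
variable {V : Type} [AddCommGroup V] [Module (KK k) V] [Module k V] [IsScalarTower k (KK k) V]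

/-- total dimension in Picard degree `w` (sum over the `n ^ 5` characters) -/
noncomputable def hh (n : ℕ) (U : Fam S V) (w : ZZ) : ℕ :=
  ∑ c : Fin 5 → Fin n, finrank k (U.U (w + lamv fun j => (c j : ℤ)))

/-- the Hilbert function of `U` is eventually given by the Riemann-Roch polynomial -/
def HasRR (n : ℕ) (U : Fam S V) [FiniteDimensional (KK k) V] (g : ℚ) : Prop :=
  ∀ w : ZZ, ∀ᶠ m : ℤ in atTop,
    (hh n U (w + cst m) : ℚ) = RR n (finrank (KK k) V) U.cl g (w + cst m)

/-- multiplication by `φ` as a `k`-linear map -/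
noncomputable def smulL (φ : KK k) : V →ₗ[k] V := (LinearMap.lsmul (KK k) V φ).restrictScalars k

/-- `x ^ q • X + y ^ q • X + X` -/
noncomputable def kos (x y : KK k) (q : ℕ) (X : Submodule k V) : Submodule k V :=
  X.map (smulL (x ^ q)) ⊔ X.map (smulL (y ^ q)) ⊔ X

/-- vectors `v` with `x ^ q • v, y ^ q • v, v ∈ X` -/
noncomputable def sat (x y : KK k) (q : ℕ) (X : Submodule k V) : Submodule k V :=
  X.comap (smulL (x ^ q)) ⊓ X.comap (smulL (y ^ q)) ⊓ X

end fams

/-- A homogeneous system of parameters `x, y, 1` in degree `cst n`. -/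
structure Hs (D : DP k n) where
  x : KK k
  y : KK k
  hx : x ∈ D.S.B (cst n)
  hy : y ∈ D.S.B (cst n)
  y_ne : y ≠ 0
  y_val : ∀ i, D.S.val (D.sp i) (cst n) y = 0
  indep : AlgebraicIndependent k ![x, y]
  fin : ∀ w : ZZ, ∀ᶠ m : ℤ in atTop, ∀ c : Fin 5 → ℤ,
    D.S.B (w + lamv c + cst (m + n)) ≤ kos x y 1 (D.S.B (w + lamv c + cst m))

namespace Hs

variable {D : DP k n} (h : Hs D)

/-- the embedding `k(X,Y) → k(s,t)`, `X ↦ x`, `Y ↦ y` -/
noncomputable def emb : KK k →ₐ[k] KK k :=
  IsFractionRing.liftAlgHom (A := MvPolynomial (Fin 2) k) (K := KK k) (L := KK k)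
    (g := MvPolynomial.aeval ![h.x, h.y]) h.indep

/-- top Koszul cohomology dimension -/
noncomputable def tdim {V : Type} [AddCommGroup V] [Module (KK k) V] [Module k V]
    [IsScalarTower k (KK k) V] (q : ℕ) (U : Fam D.S V) (a : ZZ) : ℤ :=
  (finrank k (U.U (a + cst (3 * q * n))) : ℤ) - finrank k (kos h.x h.y q (U.U (a + cst (2 * q * n))))

/-- bound for the first Koszul cohomology dimension -/
noncomputable def sdim {V : Type} [AddCommGroup V] [Module (KK k) V] [Module k V]
    [IsScalarTower k (KK k) V] (q : ℕ) (U : Fam D.S V) (a : ZZ) : ℤ :=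
  finrank k (sat h.x h.y q (U.U (a + cst (q * n))))

end Hs

/-- restriction of scalars along `h.emb` -/
def Res {D : DP k n} (_h : Hs D) (V : Type) : Type := V

section res

variable {D : DP k n} (h : Hs D)
variable (V : Type) [AddCommGroup V] [Module (KK k) V] [Module k V] [IsScalarTower k (KK k) V]

instance : AddCommGroup (Res h V) := inferInstanceAs (AddCommGroup V)
instance : Module k (Res h V) := inferInstanceAs (Module k V)
noncomputable instance : Module (KK k) (Res h V) := Module.compHom V h.emb.toRingHom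

/-- the identity map `V → Res h V` -/
def toRes : V ≃ₗ[k] Res h V := LinearEquiv.refl k V

omit [IsScalarTower k (KK k) V] in
theorem smul_toRes (f : KK k) (v : V) : f • toRes h V v = toRes h V (h.emb f • v) := rfl

instance : IsScalarTower k (KK k) (Res h V) where
  smul_assoc c f v := by
    change h.emb (c • f) • (show V from v) = c • h.emb f • (show V from v)
    rw [map_smul, smul_assoc]

/-- the dual over the subfield `k(x,y)` -/
def Dag : Type := Res h V →ₗ[KK k] KK k

noncomputable instance : AddCommGroup (Dag h V) :=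
  inferInstanceAs (AddCommGroup (Res h V →ₗ[KK k] KK k))
noncomputable instance : Module k (Dag h V) :=
  inferInstanceAs (Module k (Res h V →ₗ[KK k] KK k))

/-- underlying functional -/
def Dag.fn (ψ : Dag h V) : Res h V →ₗ[KK k] KK k := ψ

/-- multiplication by `φ` on `V`, as a map over the subfield -/
noncomputable def resMul (φ : KK k) : Res h V →ₗ[KK k] Res h V where
  toFun v := toRes h V (φ • (toRes h V).symm v)
  map_add' u v := by simp
  map_smul' f v := by
    change φ • h.emb f • (show V from v) = h.emb f • φ • (show V from v)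
    rw [smul_comm]

noncomputable instance : Module (KK k) (Dag h V) where
  smul φ ψ := (Dag.fn h V ψ).comp (resMul h V φ)
  one_smul ψ := LinearMap.ext fun v => congrArg (Dag.fn h V ψ) (one_smul (KK k) (show V from v))
  mul_smul φ φ' ψ := LinearMap.ext fun v => congrArg (Dag.fn h V ψ) (by
    change (φ * φ') • (show V from v) = φ' • φ • (show V from v)
    rw [mul_comm, mul_smul])
  smul_zero _ := rfl
  smul_add _ _ _ := rfl
  add_smul φ φ' ψ := LinearMap.ext fun v => by
    change Dag.fn h V ψ (toRes h V ((φ + φ') • (show V from v))) =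
      Dag.fn h V ψ (toRes h V (φ • (show V from v))) + Dag.fn h V ψ (toRes h V (φ' • (show V from v)))
    rw [add_smul, map_add, map_add]
  zero_smul ψ := LinearMap.ext fun v => by
    change Dag.fn h V ψ (toRes h V ((0 : KK k) • (show V from v))) = 0
    rw [zero_smul, map_zero, map_zero]

omit [IsScalarTower k (KK k) V] in
theorem Dag.fn_smul (φ : KK k) (ψ : Dag h V) (v : V) :
    Dag.fn h V (φ • ψ) (toRes h V v) = Dag.fn h V ψ (toRes h V (φ • v)) := rfl

instance : IsScalarTower k (KK k) (Dag h V) where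
  smul_assoc c φ ψ := LinearMap.ext fun v => by
    change Dag.fn h V ψ (toRes h V ((c • φ) • (show V from v))) =
      c • Dag.fn h V ψ (toRes h V (φ • (show V from v)))
    rw [smul_assoc, map_smul, LinearMap.map_smul_of_tower]

variable {V}

/-- the family `Hom_A(U, A)` -/
def dag (U : Fam D.S V) : Fam D.S (Dag h V) where
  U a :=
    { carrier := {ψ | ∀ (j : ℤ) (u : V), u ∈ U.U (cst (n * j) - a) →
        Dag.fn h V ψ (toRes h V u) ∈ AA k j}
      zero_mem' := fun j u _ => Submodule.zero_mem _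
      add_mem' := fun hx hy j u hu => Submodule.add_mem _ (hx j u hu) (hy j u hu)
      smul_mem' := fun c x hx j u hu => Submodule.smul_mem _ c (hx j u hu) }
  smul_mem := by
    intro a b φ ψ hφ hψ j u hu
    rw [Dag.fn_smul]
    refine hψ j _ ?_
    have := U.smul_mem a _ φ u hφ hu
    rwa [show a + (cst (n * j) - (a + b)) = cst (n * j) - b by abel] at this

end res

/-- vanishing of the second Koszul cohomology of `a, b, c` on `M` -/
def Kos2 {R : Type} [CommRing R] (M : Type) [AddCommGroup M] [Module R M] (a b c : R) : Prop :=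
  ∀ u v w : M, a • u + b • v + c • w = 0 →
    ∃ p q r : M, u = b • r - c • q ∧ v = c • p - a • r ∧ w = a • q - b • p

/-- A filtration of `M` whose associated graded object is the family `U`. -/
structure Model {D : DP k n} (h : Hs D) (M : Type) [AddCommGroup M] [Module (PS k) M]
    [Module k M] [IsScalarTower k (PS k) M]
    {V : Type} [AddCommGroup V] [Module (KK k) V] [Module k V] (U : Fam D.S V) where
  F : ℤ → (Fin 5 → ℤ) → Submodule (PS k) M
  ι : ∀ m c, (F m c).restrictScalars k →ₗ[k] V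
  anti : ∀ m c, F (m + 1) c ≤ F m c
  ker : ∀ m c (x : (F m c).restrictScalars k), ι m c x = 0 ↔ (x : M) ∈ F (m + 1) c
  range : ∀ m c, LinearMap.range (ι m c) = U.U (cst m + lamv c)
  X_mem : ∀ m c (i : Fin 3) (x : M), x ∈ F m c → (MvPowerSeries.X i : PS k) • x ∈ F (m + n) c
  X_comp : ∀ m c (i : Fin 3) (x : M) (hx : x ∈ F m c),
    ι (m + n) c ⟨(MvPowerSeries.X i : PS k) • x, X_mem m c i x hx⟩ =
      (![h.x, h.y, 1] : Fin 3 → KK k) i • ι m c ⟨x, hx⟩
  top : ∃ m₀, ∀ c, F m₀ c = ⊤
  sep : ∀ c (j : ℕ), ∃ m, F m c ≤ IsLocalRing.maximalIdeal (PS k) ^ j • ⊤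

/-- An embedding of the section ring in the algebraic closure of `Frac k[[X,Y,Z]]`. -/
structure Emb {D : DP k n} (h : Hs D) where
  j : KK k →ₐ[k] OO k
  τ : OO k
  ω : Fin 5 → OO k
  τ_pow : τ ^ n = algebraMap (PS k) (OO k) (MvPowerSeries.X 2)
  j_x : j h.x * τ ^ n = algebraMap (PS k) (OO k) (MvPowerSeries.X 0)
  j_y : j h.y * τ ^ n = algebraMap (PS k) (OO k) (MvPowerSeries.X 1)
  ω_pow : ∀ i, ω i ^ n = j (uu k i)

namespace Emb

variable {D : DP k n} {h : Hs D} (E : Emb h)

/-- the character of degree `cst m + lamv c` -/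
noncomputable def chi (m : ℤ) (c : Fin 5 → ℤ) : OO k := E.τ ^ m * ∏ i, E.ω i ^ c i

/-- the complete local domain -/
noncomputable def SS : Subalgebra (PS k) (OO k) :=
  Algebra.adjoin (PS k)
    {z | ∃ m c, ∃ φ ∈ D.S.B (cst m + lamv c), z = E.j φ * E.chi m c}

end Emb

end Vale.Agent.P190
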